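/-
Row 322 (S0499): `hWL` for the level data `FinalBridge.LD`.  (helper31)
-/
import Mathlib
import Crest.Agent.Lib.MemSample.WLBridge
import Crest.Agent.Lib.MemSample.FinalBridge

set_option autoImplicit false

open MeasureTheory ProbabilityTheory Filter
open scoped ENNReal BigOperators
open Crest.StreamLearn
open Crest.Agent.Lib.MemSample.Cubes
open Crest.Agent.Lib.MemSample.SphereFacts

namespace MemSample.FinalBridge

open MemSample.WLAssemble MemSample.Potential

variable {d : ℕ} [NeZero d]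
variable {ι : Type*} [Fintype ι] [MeasurableSpace ι] [MeasurableSingletonClass ι]

/-- **`hWL` for `LD`.** -/
theorem hWL_of_window (hd : 64 ≤ d) (hβ : 1 ≤ d / 2) (hβd : d / 2 + 2 ≤ d)
    (f : (Fin (d / 16) → E d) → (Fin (d / 16) → ℝ) → ι) (hf : Measurable (Function.uncurry f))
    {ℓ : Sphere d → ℝ} (hℓ : Good ℓ) (p : ℕ × (Fin d → ℤ))
    (hpos : 0 < ∫ s in (LD d (d / 2) hβ hβd).classSet ℓ p, ℓ s ∂sphereUniform d) :
    LevelData.info ℓ (fun n s => Lk f n (s : E d)) ((LD d (d / 2) hβ hβd).classSet ℓ p)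
        (sphereUniform d) ≤
      11 * Real.log (Fintype.card ι) / d + 8 * d +
        (1 / 5) * Real.log ((LD d (d / 2) hβ hβd).mass ℓ p.1 p.2 /
          ∫ s in (LD d (d / 2) hβ hβd).classSet ℓ p, ℓ s ∂sphereUniform d) := by
  set D := LD d (d / 2) hβ hβd with hD
  have hWm : MeasurableSet (D.classSet ℓ p) := LevelData.measurableSet_classSet hℓ p
  have hint : IntegrableOn ℓ Set.univ (sphereUniform d) :=
    (WLBridge.integrableOn_good hℓ)
  have hsub : ∀ s ∈ D.classSet ℓ p, idx p.1 (s : E d) = p.2 := fun s hs => hs.1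
  have hA : ∫ s in D.classSet ℓ p, ℓ s ∂sphereUniform d ≤ D.mass ℓ p.1 p.2 := by
    unfold LevelData.mass
    refine setIntegral_mono_set (WLBridge.integrableOn_good hℓ)
      (Eventually.of_forall fun s => hℓ.nonneg s) ?_
    exact (LevelData.classSet_subset (D := D) ℓ p).eventuallyLE
  have hFrost : ∀ q', p.1 ≤ q' → ∀ s ∈ D.classSet ℓ p,
      ∫ u in {u : Sphere d | idx q' (u : E d) = idx q' (s : E d)}, ℓ u ∂sphereUniform d ≤
        D.mass ℓ p.1 p.2 * ((2⁻¹ : ℝ) ^ (q' - p.1)) ^ (d / 2) := by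
    intro q' hq' s hs
    have h1 := LevelData.frostman_on_class (D := D) hℓ hs q'
    unfold LevelData.val at h1
    have hcube : D.cube p.1 s = p.2 := hs.1
    rw [hcube] at h1
    have hb : D.b = ((d / 2 : ℕ) : ℝ) * Real.log 2 := rfl
    have he : (((2⁻¹ : ℝ) ^ (q' - p.1)) ^ (d / 2)) * Real.exp (D.b * q') = Real.exp (D.b * p.1) := by
      have h2 : (2⁻¹ : ℝ) = Real.exp (-Real.log 2) := by
        rw [Real.exp_neg, Real.exp_log (by norm_num)]
      rw [h2, ← Real.exp_nat_mul, ← Real.exp_nat_mul, ← Real.exp_add]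
      congr 1
      rw [hb, Nat.cast_sub hq']
      ring
    have hexp : 0 < Real.exp (D.b * q') := Real.exp_pos _
    have h3 : D.mass ℓ q' (D.cube q' s) * Real.exp (D.b * q') ≤
        (D.mass ℓ p.1 p.2 * ((2⁻¹ : ℝ) ^ (q' - p.1)) ^ (d / 2)) * Real.exp (D.b * q') := by
      rw [mul_assoc, he]
      exact h1
    exact le_of_mul_le_mul_right h3 hexp
  exact WLBridge.info_le_of_window hd f hf (sphereUniform d) hℓ hWm hpos hsub hA hFrost

end MemSample.FinalBridge
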