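import Mathlib

/-!
# Window Lemma, step (g): tail bound and integration of the tail

Row 322 (S0499). Two abstract lemmas, no Gaussians.

* `tail_holder` : Hoelder over `(X, n)`; from Lemma B, the moment bound and the ellipsoid
  data get the tail bound `∑ n, ∫⁻ s in T n, P {X | f X (ev X s) = n} ∂μ ≤ Ke + Vol ^ a * (N * Bd) ^ b`.
* `info_le_of_tail` : tail bound for all levels `ℓ ≥ 0` and parameters `K ≥ 1` gives the bound of the
  mutual information `∑ n, ∫ L n s * logb 2 (L n s / p n) ∂μ ≤ logb 2 V / θ + 4 * (1 + w / 2) / θ`.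
-/

namespace MemSample.WLTail2

open MeasureTheory Filter Set
open scoped ENNReal

/-! ## Hoelder over `(X, n)` -/

section Holder

variable {Ω S Y ι : Type*} [MeasurableSpace Ω] [MeasurableSpace S] [MeasurableSpace Y]
  [Fintype ι] [MeasurableSpace ι] [MeasurableSingletonClass ι]

/-- Hoelder on `Ω × ι`, in the form used: `∑ₙ ∫ αₙ ^ a * βₙ ^ b ≤ (∑ₙ ∫ αₙ) ^ a * (∑ₙ ∫ βₙ) ^ b`. -/
lemma sum_lintegral_holder (P : Measure Ω) [SFinite P]
    (α β : ι → Ω → ℝ≥0∞) (hα : ∀ n, Measurable (α n)) (hβ : ∀ n, Measurable (β n))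
    (a b : ℝ) (ha : 0 < a) (hb : 0 < b) (hab : a + b = 1) :
    ∑ n, ∫⁻ X, α n X ^ a * β n X ^ b ∂P
      ≤ (∑ n, ∫⁻ X, α n X ∂P) ^ a * (∑ n, ∫⁻ X, β n X ∂P) ^ b := by
  classical
  have hconj : (1 / a).HolderConjugate (1 / b) := by
    refine ⟨?_, ?_, ?_⟩
    · have : (1 / a)⁻¹ + (1 / b)⁻¹ = 1 := by simpa using hab
      simpa using this
    · positivity
    · positivity
  -- the product measure on `Ω × ι`
  let ν : Measure (Ω × ι) := P.prod Measure.count
  have hint : ∀ g : Ω × ι → ℝ≥0∞, Measurable g →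
      ∫⁻ z, g z ∂ν = ∑ n, ∫⁻ X, g (X, n) ∂P := by
    intro g hg
    have h1 : ∫⁻ z, g z ∂ν = ∫⁻ X, ∫⁻ n, g (X, n) ∂Measure.count ∂P := lintegral_prod _ hg.aemeasurable
    rw [h1]
    have h2 : ∀ X, ∫⁻ n, g (X, n) ∂(Measure.count : Measure ι) = ∑ n, g (X, n) := by
      intro X
      rw [lintegral_count, tsum_fintype]
    simp_rw [h2]
    rw [lintegral_finsetSum]
    intro n _
    exact hg.comp (measurable_id.prodMk measurable_const)
  have hF : Measurable (fun z : Ω × ι => α z.2 z.1 ^ a) := by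
    refine measurable_from_prod_countable_left (fun n => ?_)
    exact (hα n).pow_const a
  have hG : Measurable (fun z : Ω × ι => β z.2 z.1 ^ b) := by
    refine measurable_from_prod_countable_left (fun n => ?_)
    exact (hβ n).pow_const b
  have hH := ENNReal.lintegral_mul_le_Lp_mul_Lq ν hconj hF.aemeasurable hG.aemeasurable
  have e1 : ∫⁻ z, ((fun z : Ω × ι => α z.2 z.1 ^ a) * (fun z : Ω × ι => β z.2 z.1 ^ b)) z ∂ν
      = ∑ n, ∫⁻ X, α n X ^ a * β n X ^ b ∂P := by
    have := hint ((fun z : Ω × ι => α z.2 z.1 ^ a) * (fun z : Ω × ι => β z.2 z.1 ^ b)) (hF.mul hG)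
    simpa using this
  have pow1 : ∀ x : ℝ≥0∞, (x ^ a) ^ (1 / a) = x := by
    intro x
    rw [← ENNReal.rpow_mul, mul_one_div_cancel ha.ne', ENNReal.rpow_one]
  have pow2 : ∀ x : ℝ≥0∞, (x ^ b) ^ (1 / b) = x := by
    intro x
    rw [← ENNReal.rpow_mul, mul_one_div_cancel hb.ne', ENNReal.rpow_one]
  have e2 : ∫⁻ z, (fun z : Ω × ι => α z.2 z.1 ^ a) z ^ (1 / a) ∂ν = ∑ n, ∫⁻ X, α n X ∂P := by
    simp only [pow1]
    have := hint (fun z : Ω × ι => α z.2 z.1) (by
      refine measurable_from_prod_countable_left (fun n => ?_)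
      exact hα n)
    simpa using this
  have e3 : ∫⁻ z, (fun z : Ω × ι => β z.2 z.1 ^ b) z ^ (1 / b) ∂ν = ∑ n, ∫⁻ X, β n X ∂P := by
    simp only [pow2]
    have := hint (fun z : Ω × ι => β z.2 z.1) (by
      refine measurable_from_prod_countable_left (fun n => ?_)
      exact hβ n)
    simpa using this
  rw [e1, e2, e3] at hH
  have ia : 1 / (1 / a) = a := by field_simp
  have ib : 1 / (1 / b) = b := by field_simp
  rwa [ia, ib] at hH

/-- Step (g): Hoelder over `(X, n)`.  `T n` are the level sets `S_n`, `B` the family of ellipsoids,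
`f X y = n` the cells `g_{n,X}`, which partition `Y`. -/
theorem tail_holder (P : Measure Ω) [IsProbabilityMeasure P] (μ : Measure S) [IsFiniteMeasure μ]
    (vol : Measure Y) [SFinite vol]
    (ev : Ω → S → Y) (hev : Measurable (Function.uncurry ev))
    (f : Ω → Y → ι) (hf : Measurable (Function.uncurry f))
    (T : ι → Set S)
    (B : Set (Ω × Y)) (hB : MeasurableSet B)
    (Ke : ℝ≥0∞) (hKe : ∀ X, μ {s | (X, ev X s) ∉ B} ≤ Ke)
    (Vol : ℝ≥0∞) (hVol : ∫⁻ X, vol (Prod.mk X ⁻¹' B) ∂P ≤ Vol)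
    (Lam : ℕ → ι → Ω → ℝ≥0∞) (hLam : ∀ m n, Measurable (Lam m n))
    (a b : ℝ) (ha : 0 < a) (hb : 0 < b) (hab : a + b = 1)
    (hLemB : ∀ n X A, MeasurableSet A →
      ((μ.restrict (T n)).map (ev X)) A
        ≤ vol A ^ a * (liminf (fun m => Lam m n X) atTop) ^ b)
    (Bd : ℝ≥0∞) (hBd : ∀ m n, ∫⁻ X, Lam m n X ∂P ≤ Bd) :
    ∑ n, ∫⁻ s in T n, P {X | f X (ev X s) = n} ∂μ
      ≤ Ke + Vol ^ a * ((Fintype.card ι : ℝ≥0∞) * Bd) ^ b := by
  classical
  have hevX : ∀ X, Measurable (ev X) := fun X => hev.of_uncurry_left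
  have hevs : ∀ s, Measurable (fun X => ev X s) := fun s => hev.of_uncurry_right
  have hfX : ∀ X, Measurable (f X) := fun X => hf.of_uncurry_left
  -- joint measurability of the event
  have hjoint : ∀ n, MeasurableSet {z : S × Ω | f z.2 (ev z.2 z.1) = n} := by
    intro n
    have hm : Measurable (fun z : S × Ω => f z.2 (ev z.2 z.1)) := by
      have h1 : Measurable (fun z : S × Ω => (z.2, ev z.2 z.1)) :=
        measurable_snd.prodMk (hev.comp (measurable_snd.prodMk measurable_fst))
      exact hf.comp h1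
    exact hm (measurableSet_singleton n)
  -- cells intersected with `B`
  let A : ι → Ω → Set Y := fun n X => {y | f X y = n ∧ (X, y) ∈ B}
  have hA : ∀ n X, MeasurableSet (A n X) := by
    intro n X
    have h1 : MeasurableSet {y | f X y = n} := (hfX X) (measurableSet_singleton n)
    have h2 : MeasurableSet (Prod.mk X ⁻¹' B) := measurable_prodMk_left hB
    exact h1.inter h2
  have hAjoint : ∀ n, MeasurableSet {z : Ω × Y | f z.1 z.2 = n ∧ z ∈ B} := by
    intro n
    exact (hf (measurableSet_singleton n)).inter hB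
  -- Tonelli
  have hTon : ∀ n, ∫⁻ s in T n, P {X | f X (ev X s) = n} ∂μ
      = ∫⁻ X, (μ.restrict (T n)) {s | f X (ev X s) = n} ∂P := by
    intro n
    have h1 := Measure.prod_apply (μ := μ.restrict (T n)) (ν := P) (hjoint n)
    have h2 := Measure.prod_apply_symm (μ := μ.restrict (T n)) (ν := P) (hjoint n)
    have h3 := h1.symm.trans h2
    simpa [Set.preimage] using h3
  -- pointwise splitting
  let Lim : ι → Ω → ℝ≥0∞ := fun n X => liminf (fun m => Lam m n X) atTop
  have hLim : ∀ n, Measurable (Lim n) := by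
    intro n
    exact Measurable.liminf (fun m => hLam m n)
  have hsplit : ∀ n X, (μ.restrict (T n)) {s | f X (ev X s) = n}
      ≤ vol (A n X) ^ a * (Lim n X) ^ b + μ {s | f X (ev X s) = n ∧ (X, ev X s) ∉ B} := by
    intro n X
    have hsub : {s | f X (ev X s) = n} ⊆ (ev X ⁻¹' A n X) ∪ {s | f X (ev X s) = n ∧ (X, ev X s) ∉ B} := by
      intro s hs
      by_cases h : (X, ev X s) ∈ B
      · exact Or.inl ⟨hs, h⟩
      · exact Or.inr ⟨hs, h⟩
    calc (μ.restrict (T n)) {s | f X (ev X s) = n}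
        ≤ (μ.restrict (T n)) ((ev X ⁻¹' A n X) ∪ {s | f X (ev X s) = n ∧ (X, ev X s) ∉ B}) :=
          measure_mono hsub
      _ ≤ (μ.restrict (T n)) (ev X ⁻¹' A n X) + (μ.restrict (T n)) {s | f X (ev X s) = n ∧ (X, ev X s) ∉ B} :=
          measure_union_le _ _
      _ ≤ vol (A n X) ^ a * (Lim n X) ^ b + μ {s | f X (ev X s) = n ∧ (X, ev X s) ∉ B} := by
          refine add_le_add ?_ (Measure.restrict_le_self _)
          rw [← Measure.map_apply (hevX X) (hA n X)]
          exact hLemB n X (A n X) (hA n X)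
  -- the sets outside `B` are disjoint
  have hout : ∀ X, ∑ n, μ {s | f X (ev X s) = n ∧ (X, ev X s) ∉ B} ≤ Ke := by
    intro X
    have hmeas : ∀ n, MeasurableSet {s | f X (ev X s) = n ∧ (X, ev X s) ∉ B} := by
      intro n
      have h1 : MeasurableSet {s | f X (ev X s) = n} :=
        ((hfX X).comp (hevX X)) (measurableSet_singleton n)
      have h2 : MeasurableSet {s | (X, ev X s) ∈ B} :=
        (measurable_const.prodMk (hevX X)) hB
      exact h1.inter h2.compl
    have hdisj : Set.PairwiseDisjoint (↑(Finset.univ : Finset ι))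
        (fun n => {s | f X (ev X s) = n ∧ (X, ev X s) ∉ B}) := by
      intro n _ n' _ hnn'
      refine Set.disjoint_left.2 ?_
      intro s hs hs'
      exact hnn' (hs.1.symm.trans hs'.1)
    rw [← measure_biUnion_finset hdisj (fun n _ => hmeas n)]
    refine le_trans (measure_mono ?_) (hKe X)
    intro s hs
    simp only [Finset.mem_univ, Set.iUnion_true, Set.mem_iUnion] at hs
    obtain ⟨n, hn⟩ := hs
    exact hn.2
  -- the cells inside `B` are disjoint
  have hin : ∀ X, ∑ n, vol (A n X) ≤ vol (Prod.mk X ⁻¹' B) := by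
    intro X
    have hdisj : Set.PairwiseDisjoint (↑(Finset.univ : Finset ι)) (fun n => A n X) := by
      intro n _ n' _ hnn'
      refine Set.disjoint_left.2 ?_
      intro s hs hs'
      exact hnn' (hs.1.symm.trans hs'.1)
    rw [← measure_biUnion_finset hdisj (fun n _ => hA n X)]
    refine measure_mono ?_
    intro y hy
    simp only [Finset.mem_univ, Set.iUnion_true, Set.mem_iUnion] at hy
    obtain ⟨n, hn⟩ := hy
    exact hn.2
  have hαm : ∀ n, Measurable (fun X => vol (A n X)) := by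
    intro n
    exact measurable_measure_prodMk_left (hAjoint n)
  -- main estimate
  have hout' : ∀ n, Measurable (fun X => μ {s | f X (ev X s) = n ∧ (X, ev X s) ∉ B}) := by
    intro n
    have hm : MeasurableSet {z : Ω × S | f z.1 (ev z.1 z.2) = n ∧ (z.1, ev z.1 z.2) ∉ B} := by
      have hm1 : Measurable (fun z : Ω × S => (z.1, ev z.1 z.2)) :=
        measurable_fst.prodMk (hev.comp measurable_id)
      have h1 : MeasurableSet {z : Ω × S | f z.1 (ev z.1 z.2) = n} :=
        (hf.comp hm1) (measurableSet_singleton n)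
      have h2 : MeasurableSet {z : Ω × S | (z.1, ev z.1 z.2) ∈ B} := hm1 hB
      exact h1.inter h2.compl
    exact measurable_measure_prodMk_left hm
  calc ∑ n, ∫⁻ s in T n, P {X | f X (ev X s) = n} ∂μ
      = ∑ n, ∫⁻ X, (μ.restrict (T n)) {s | f X (ev X s) = n} ∂P := by
        exact Finset.sum_congr rfl (fun n _ => hTon n)
    _ ≤ ∑ n, ∫⁻ X, (vol (A n X) ^ a * (Lim n X) ^ b
          + μ {s | f X (ev X s) = n ∧ (X, ev X s) ∉ B}) ∂P := by
        refine Finset.sum_le_sum (fun n _ => lintegral_mono (fun X => hsplit n X))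
    _ = ∑ n, ∫⁻ X, vol (A n X) ^ a * (Lim n X) ^ b ∂P
          + ∑ n, ∫⁻ X, μ {s | f X (ev X s) = n ∧ (X, ev X s) ∉ B} ∂P := by
        rw [← Finset.sum_add_distrib]
        refine Finset.sum_congr rfl (fun n _ => ?_)
        exact lintegral_add_right _ (hout' n)
    _ ≤ (∑ n, ∫⁻ X, vol (A n X) ∂P) ^ a * (∑ n, ∫⁻ X, Lim n X ∂P) ^ b + Ke := by
        gcongr ?_ + ?_
        · exact sum_lintegral_holder P _ _ hαm hLim a b ha hb hab
        · rw [← lintegral_finsetSum _ (fun n _ => hout' n)]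
          calc ∫⁻ X, ∑ n, μ {s | f X (ev X s) = n ∧ (X, ev X s) ∉ B} ∂P
              ≤ ∫⁻ _, Ke ∂P := lintegral_mono (fun X => hout X)
            _ = Ke := by simp
    _ ≤ Vol ^ a * ((Fintype.card ι : ℝ≥0∞) * Bd) ^ b + Ke := by
        gcongr ?_ ^ a * ?_ ^ b + _
        · rw [← lintegral_finsetSum _ (fun n _ => hαm n)]
          calc ∫⁻ X, ∑ n, vol (A n X) ∂P
              ≤ ∫⁻ X, vol (Prod.mk X ⁻¹' B) ∂P := lintegral_mono (fun X => hin X)
            _ ≤ Vol := hVol
        · have : ∀ n ∈ (Finset.univ : Finset ι), ∫⁻ X, Lim n X ∂P ≤ Bd := by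
            intro n _
            calc ∫⁻ X, Lim n X ∂P
                ≤ liminf (fun m => ∫⁻ X, Lam m n X ∂P) atTop :=
                  lintegral_liminf_le (fun m => hLam m n)
              _ ≤ Bd := by
                  refine liminf_le_of_frequently_le' (Frequently.of_forall (fun m => hBd m n))
          calc ∑ n, ∫⁻ X, Lim n X ∂P ≤ ∑ _n : ι, Bd := Finset.sum_le_sum this
            _ = (Fintype.card ι : ℝ≥0∞) * Bd := by
                simp [Finset.card_univ]
    _ = Ke + Vol ^ a * ((Fintype.card ι : ℝ≥0∞) * Bd) ^ b := add_comm _ _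

end Holder

/-! ## Integration of the tail -/

section Integrate

variable {S ι : Type*} [MeasurableSpace S] [Fintype ι]

lemma le_add_count (x l0 η : ℝ) (hη : 0 < η) (J : ℕ) (hx : x ≤ l0 + J * η) :
    x ≤ l0 + η * ∑ j ∈ Finset.range J, (if l0 + j * η ≤ x then (1 : ℝ) else 0) := by
  induction J with
  | zero => simpa using hx
  | succ J ih =>
    rw [Finset.sum_range_succ]
    by_cases h : x ≤ l0 + J * η
    · have h1 := ih h
      have h2 : (0 : ℝ) ≤ (if l0 + J * η ≤ x then (1 : ℝ) else 0) := by split_ifs <;> norm_num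
      nlinarith
    · have h' : l0 + J * η < x := not_le.1 h
      have hall : ∀ j ∈ Finset.range J, (if l0 + j * η ≤ x then (1 : ℝ) else 0) = 1 := by
        intro j hj
        have hj' : (j : ℝ) ≤ J := by
          exact_mod_cast (Finset.mem_range.1 hj).le
        have : l0 + j * η ≤ x := by nlinarith
        simp [this]
      rw [Finset.sum_congr rfl hall]
      simp only [Finset.sum_const, Finset.card_range, nsmul_eq_mul, mul_one]
      rw [if_pos h'.le]
      push_cast at hx
      nlinarith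

/-- The level set `{0 < L n, 2^ℓ p_n ≤ L n}`. -/
def levelSet (μ : Measure S) (L : ι → S → ℝ) (l : ℝ) (n : ι) : Set S :=
  {s | 0 < L n s ∧ (2 : ℝ) ^ l * ∫ t, L n t ∂μ ≤ L n s}

omit [Fintype ι] in
lemma measurableSet_levelSet (μ : Measure S) (L : ι → S → ℝ) (hLm : ∀ n, Measurable (L n))
    (l : ℝ) (n : ι) : MeasurableSet (levelSet μ L l n) :=
  (measurableSet_lt measurable_const (hLm n)).inter (measurableSet_le measurable_const (hLm n))

omit [Fintype ι] in
/-- Mass of a level set (Markov): `μ(levelSet l n) ≤ 2^(-l)`. -/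
lemma measure_levelSet_le (μ : Measure S) [IsProbabilityMeasure μ] (L : ι → S → ℝ)
    (hLm : ∀ n, Measurable (L n)) (hL0 : ∀ n s, 0 ≤ L n s) (hL1 : ∀ n s, L n s ≤ 1)
    (l : ℝ) (n : ι) : μ.real (levelSet μ L l n) ≤ (2 : ℝ) ^ (-l) := by
  classical
  have hint : Integrable (L n) μ :=
    Integrable.of_bound (hLm n).aestronglyMeasurable 1
      (Eventually.of_forall (fun s => by
        rw [Real.norm_of_nonneg (hL0 n s)]; exact hL1 n s))
  set p := ∫ t, L n t ∂μ with hp
  have hp0 : 0 ≤ p := integral_nonneg (hL0 n)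
  have h2pos : (0 : ℝ) < (2 : ℝ) ^ l := by positivity
  rcases hp0.eq_or_lt with hp00 | hp0pos
  · -- `p = 0`: then `L n = 0` a.e. and the set is null
    have hae : L n =ᵐ[μ] 0 := (integral_eq_zero_iff_of_nonneg (hL0 n) hint).1 hp00.symm
    have hnull : μ (levelSet μ L l n) = 0 := by
      refine measure_mono_null (t := {s | L n s ≠ 0}) ?_ hae
      intro s hs
      exact ne_of_gt hs.1
    have : μ.real (levelSet μ L l n) = 0 := by simp [Measure.real, hnull]
    rw [this]; positivity
  · have hmeas := measurableSet_levelSet μ L hLm l n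
    have h1 : (2 : ℝ) ^ l * p * μ.real (levelSet μ L l n) ≤ ∫ s in levelSet μ L l n, L n s ∂μ := by
      have hc : ∫ _s in levelSet μ L l n, (2 : ℝ) ^ l * p ∂μ = (2 : ℝ) ^ l * p * μ.real (levelSet μ L l n) := by
        rw [setIntegral_const]; simp [smul_eq_mul, mul_comm]
      rw [← hc]
      refine setIntegral_mono_on (integrable_const _).integrableOn hint.integrableOn hmeas ?_
      intro s hs
      exact hs.2
    have h2 : ∫ s in levelSet μ L l n, L n s ∂μ ≤ p :=
      setIntegral_le_integral hint (Eventually.of_forall (hL0 n))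
    have h3 : (2 : ℝ) ^ l * μ.real (levelSet μ L l n) ≤ 1 := by
      have : (2 : ℝ) ^ l * μ.real (levelSet μ L l n) * p ≤ 1 * p := by nlinarith
      exact le_of_mul_le_mul_right this hp0pos
    rw [Real.rpow_neg (by norm_num)]
    have e : μ.real (levelSet μ L l n)
        = ((2 : ℝ) ^ l)⁻¹ * ((2 : ℝ) ^ l * μ.real (levelSet μ L l n)) := by
      field_simp
    rw [e]
    exact mul_le_of_le_one_right (by positivity) h3

theorem info_le_of_tail (μ : Measure S) [IsProbabilityMeasure μ]
    (L : ι → S → ℝ) (hLm : ∀ n, Measurable (L n)) (hL0 : ∀ n s, 0 ≤ L n s) (hL1 : ∀ n s, L n s ≤ 1)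
    (hsum : ∑ n, ∫ s, L n s ∂μ ≤ 1)
    (V θ w : ℝ) (hV : 1 ≤ V) (hθ : 0 < θ) (hw : 0 ≤ w)
    (htail : ∀ l : ℝ, 0 ≤ l → ∀ K : ℝ, 1 ≤ K →
      ∑ n, ∫ s in levelSet μ L l n, L n s ∂μ ≤ 1 / K + V * K ^ (w / 2) * (2 : ℝ) ^ (-θ * l)) :
    ∑ n, ∫ s, L n s * Real.logb 2 (L n s / ∫ t, L n t ∂μ) ∂μ
      ≤ Real.logb 2 V / θ + 4 * (1 + w / 2) / θ := by
  classical
  set l0 : ℝ := Real.logb 2 V / θ with hl0
  set η : ℝ := (1 + w / 2) / θ with hη
  have hηpos : 0 < η := by positivity
  have hl0nn : 0 ≤ l0 := by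
    have : 0 ≤ Real.logb 2 V := Real.logb_nonneg (by norm_num) hV
    positivity
  have hVpos : 0 < V := by linarith
  have hint : ∀ n, Integrable (L n) μ := fun n =>
    Integrable.of_bound (hLm n).aestronglyMeasurable 1
      (Eventually.of_forall (fun s => by
        rw [Real.norm_of_nonneg (hL0 n s)]; exact hL1 n s))
  have hp0 : ∀ n, 0 ≤ ∫ t, L n t ∂μ := fun n => integral_nonneg (hL0 n)
  -- the tail at `l_j`
  have htj : ∀ j : ℕ, ∑ n, ∫ s in levelSet μ L (l0 + j * η) n, L n s ∂μ ≤ 2 * (1 / 2 : ℝ) ^ j := by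
    intro j
    have hl : 0 ≤ l0 + j * η := by positivity
    have hK : (1 : ℝ) ≤ (2 : ℝ) ^ j := one_le_pow₀ (by norm_num)
    have h := htail _ hl ((2 : ℝ) ^ j) hK
    refine h.trans (le_of_eq ?_)
    have e1 : (1 : ℝ) / (2 : ℝ) ^ j = (1 / 2 : ℝ) ^ j := by
      rw [one_div_pow]
    have e2 : V * ((2 : ℝ) ^ j) ^ (w / 2) * (2 : ℝ) ^ (-θ * (l0 + j * η)) = (1 / 2 : ℝ) ^ j := by
      have h2 : (0 : ℝ) < 2 := by norm_num
      have hV' : V = (2 : ℝ) ^ (Real.logb 2 V) := (Real.rpow_logb h2 (by norm_num) hVpos).symm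
      have hp : ((2 : ℝ) ^ j) ^ (w / 2) = (2 : ℝ) ^ ((j : ℝ) * (w / 2)) := by
        rw [← Real.rpow_natCast, ← Real.rpow_mul h2.le]
      have hq : (1 / 2 : ℝ) ^ j = (2 : ℝ) ^ (-(j : ℝ)) := by
        rw [Real.rpow_neg h2.le, Real.rpow_natCast, one_div_pow, one_div]
      rw [hp, hq]
      nth_rewrite 1 [hV']
      rw [← Real.rpow_add h2, ← Real.rpow_add h2]
      congr 1
      rw [hl0, hη]
      field_simp
      ring
    rw [e1, e2]; ring
  -- a uniform `J`
  obtain ⟨J, hJ⟩ : ∃ J : ℕ, ∀ n, Real.logb 2 (1 / ∫ t, L n t ∂μ) ≤ l0 + J * η := by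
    obtain ⟨J, hJ⟩ := exists_nat_gt ((∑ n, |Real.logb 2 (1 / ∫ t, L n t ∂μ)|) / η)
    refine ⟨J, fun n => ?_⟩
    have h1 : |Real.logb 2 (1 / ∫ t, L n t ∂μ)| ≤ ∑ n, |Real.logb 2 (1 / ∫ t, L n t ∂μ)| :=
      Finset.single_le_sum (f := fun n => |Real.logb 2 (1 / ∫ t, L n t ∂μ)|)
        (fun _ _ => abs_nonneg _) (Finset.mem_univ n)
    have h2 := (div_lt_iff₀ hηpos).1 hJ
    have h3 := le_abs_self (Real.logb 2 (1 / ∫ t, L n t ∂μ))
    linarith
  -- the estimate for a single `n`
  have hn : ∀ n, ∫ s, L n s * Real.logb 2 (L n s / ∫ t, L n t ∂μ) ∂μ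
      ≤ l0 * ∫ s, L n s ∂μ
        + η * ∑ j ∈ Finset.range J, ∫ s in levelSet μ L (l0 + j * η) n, L n s ∂μ := by
    intro n
    set p := ∫ t, L n t ∂μ with hp
    have hsetnn : ∀ j : ℕ, 0 ≤ ∫ s in levelSet μ L (l0 + j * η) n, L n s ∂μ := fun j =>
      integral_nonneg (hL0 n)
    have hrhsnn : 0 ≤ l0 * p + η * ∑ j ∈ Finset.range J, ∫ s in levelSet μ L (l0 + j * η) n, L n s ∂μ := by
      have : 0 ≤ ∑ j ∈ Finset.range J, ∫ s in levelSet μ L (l0 + j * η) n, L n s ∂μ :=
        Finset.sum_nonneg (fun j _ => hsetnn j)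
      have := hp0 n
      positivity
    rcases (hp0 n).eq_or_lt with hp00 | hpp
    · -- `p = 0`: the integrand vanishes identically
      have hpz : p = 0 := hp00.symm
      have h0 : ∀ s, L n s * Real.logb 2 (L n s / p) = 0 := by
        intro s
        simp [hpz]
      simp_rw [h0]
      simpa using hrhsnn
    by_cases hGint : Integrable (fun s => L n s * Real.logb 2 (L n s / p)) μ
    swap
    · rw [integral_undef hGint]; exact hrhsnn
    -- pointwise estimate
    have hpt : ∀ s, L n s * Real.logb 2 (L n s / p)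
        ≤ l0 * L n s + η * ∑ j ∈ Finset.range J,
            (levelSet μ L (l0 + j * η) n).indicator (L n) s := by
      intro s
      rcases (hL0 n s).eq_or_lt with h00 | hpos
      · have hind : ∀ j, (levelSet μ L (l0 + j * η) n).indicator (L n) s = 0 := by
          intro j
          by_cases hs : s ∈ levelSet μ L (l0 + j * η) n
          · rw [Set.indicator_of_mem hs]; exact h00.symm
          · rw [Set.indicator_of_notMem hs]
        simp [hind, ← h00]
      · set x := Real.logb 2 (L n s / p) with hx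
        have hxle : x ≤ l0 + J * η := by
          refine le_trans ?_ (hJ n)
          refine Real.logb_le_logb_of_le (by norm_num) (by positivity) ?_
          rw [← hp]
          exact div_le_div_of_nonneg_right (hL1 n s) hpp.le
        have hc := le_add_count x l0 η hηpos J hxle
        have hind : ∀ j : ℕ, (levelSet μ L (l0 + j * η) n).indicator (L n) s
            = (if l0 + j * η ≤ x then (1 : ℝ) else 0) * L n s := by
          intro j
          have hiff : s ∈ levelSet μ L (l0 + j * η) n ↔ l0 + j * η ≤ x := by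
            constructor
            · intro hs
              have h2 : (2 : ℝ) ^ (l0 + j * η) ≤ L n s / p := by
                rw [le_div_iff₀ hpp]; exact hs.2
              rw [hx, Real.le_logb_iff_rpow_le (by norm_num) (by positivity)]
              exact h2
            · intro h
              rw [hx, Real.le_logb_iff_rpow_le (by norm_num) (by positivity)] at h
              exact ⟨hpos, (le_div_iff₀ hpp).1 h⟩
          by_cases hs : s ∈ levelSet μ L (l0 + j * η) n
          · rw [Set.indicator_of_mem hs, if_pos (hiff.1 hs), one_mul]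
          · rw [Set.indicator_of_notMem hs, if_neg (fun h => hs (hiff.2 h)), zero_mul]
        simp_rw [hind]
        rw [← Finset.sum_mul]
        have := mul_le_mul_of_nonneg_right hc hpos.le
        nlinarith
    have hindint : ∀ j : ℕ, Integrable ((levelSet μ L (l0 + j * η) n).indicator (L n)) μ := fun j =>
      (hint n).indicator (measurableSet_levelSet μ L hLm _ n)
    have hRint : Integrable (fun s => l0 * L n s + η * ∑ j ∈ Finset.range J,
            (levelSet μ L (l0 + j * η) n).indicator (L n) s) μ := by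
      refine ((hint n).const_mul _).add ?_
      exact (integrable_finsetSum _ (fun j _ => hindint j)).const_mul _
    calc ∫ s, L n s * Real.logb 2 (L n s / p) ∂μ
        ≤ ∫ s, (l0 * L n s + η * ∑ j ∈ Finset.range J,
            (levelSet μ L (l0 + j * η) n).indicator (L n) s) ∂μ :=
          integral_mono hGint hRint hpt
      _ = l0 * ∫ s, L n s ∂μ + η * ∑ j ∈ Finset.range J,
            ∫ s in levelSet μ L (l0 + j * η) n, L n s ∂μ := by
          rw [integral_add ((hint n).const_mul _)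
            ((integrable_finsetSum _ (fun j _ => hindint j)).const_mul _)]
          rw [integral_const_mul, integral_const_mul, integral_finsetSum _ (fun j _ => hindint j)]
          congr 2
          refine Finset.sum_congr rfl (fun j _ => ?_)
          exact integral_indicator (measurableSet_levelSet μ L hLm _ n)
  -- sum over `n`
  have hgeom : ∑ j ∈ Finset.range J, (2 : ℝ) * (1 / 2 : ℝ) ^ j ≤ 4 := by
    rw [← Finset.mul_sum]
    have := sum_geometric_two_le J
    linarith
  calc ∑ n, ∫ s, L n s * Real.logb 2 (L n s / ∫ t, L n t ∂μ) ∂μ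
      ≤ ∑ n, (l0 * ∫ s, L n s ∂μ
        + η * ∑ j ∈ Finset.range J, ∫ s in levelSet μ L (l0 + j * η) n, L n s ∂μ) :=
        Finset.sum_le_sum (fun n _ => hn n)
    _ = l0 * ∑ n, ∫ s, L n s ∂μ
        + η * ∑ j ∈ Finset.range J, ∑ n, ∫ s in levelSet μ L (l0 + j * η) n, L n s ∂μ := by
        rw [Finset.sum_add_distrib, ← Finset.mul_sum, ← Finset.mul_sum, Finset.sum_comm]
    _ ≤ l0 * 1 + η * ∑ j ∈ Finset.range J, (2 : ℝ) * (1 / 2 : ℝ) ^ j := by
        gcongr with j _
        exact htj j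
    _ ≤ l0 * 1 + η * 4 := by gcongr
    _ = l0 + 4 * (1 + w / 2) / θ := by
        rw [hη]; ring

end Integrate

end MemSample.WLTail2
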